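import Vale.Agent.P246.Cyc.Ab
import Vale.Agent.P246.Pack.Pack
import Vale.Agent.P246.Q24.H1

/-!
# The order `ℤ[ζ_9] ⊕ ℤ[ζ_9] j`: norm form, coordinates and the packing bound
-/

set_option linter.all false

namespace Vale.Agent.P246.Max9

open Vale.Agent.P246.Q24 Vale.Agent.P246.Cyc Vale.Agent.P246.Pack

/-- `ℤ[ζ_9 + ζ_9⁻¹]` -/
abbrev P9 : Type := Cub ℤ true
/-- `ℤ[ζ_9]` -/
abbrev Z9 : Type := Zt P9
/-- `ℤ[ζ_9] ⊕ ℤ[ζ_9] j` -/
abbrev T9 : Type := Dbl Z9 true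

/-- the reduced norm -/
def nr (x : T9) : P9 := Zt.ab x.fst + Zt.ab x.snd

theorem nrd_nr (x : T9) : Dbl.nrd x = Zt.C (nr x) := nrd_eq x

theorem nr_mul (x y : T9) : nr (x * y) = nr x * nr y := by
  apply Zt.C_inj
  rw [← nrd_nr, Dbl.nrd_mul, nrd_nr, nrd_nr, map_mul]

theorem TN_nr (x : T9) : TN (nr x) := (TN_ab _).add (TN_ab _)

theorem nr_zero {x : T9} (h : nr x = 0) : x = 0 := by
  apply nrd_zero
  rw [nrd_nr, h, map_zero]

/-- the absolute norm -/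
def nu (x : T9) : ℤ := Cub.nm (nr x)

theorem nu_mul (x y : T9) : nu (x * y) = nu x * nu y := by
  rw [nu, nr_mul, Cub.nm_mul, nu, nu]

theorem nu_nonneg (x : T9) : 0 ≤ nu x := (TN_nr x).nm_nonneg

theorem nu_zero {x : T9} : nu x = 0 ↔ x = 0 := by
  rw [nu, nm_eq_zero]
  constructor
  · exact nr_zero
  · rintro rfl
    simp [nr, Zt.ab_zero]

theorem nu_pos {x : T9} (h : x ≠ 0) : 0 < nu x :=
  lt_of_le_of_ne (nu_nonneg x) (fun h0 => h (nu_zero.1 h0.symm))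

theorem mz {x y : T9} (h : x * y = 0) : x = 0 ∨ y = 0 := by
  rw [← nu_zero, nu_mul, mul_eq_zero, nu_zero, nu_zero] at h
  exact h

theorem nr_C (z : Z9) : nr (Dbl.C z) = Zt.ab z := by
  simp [nr, Zt.ab_zero]

theorem nu_star (x : T9) : nu (Dbl.star x) = nu x := by
  rw [nu, nu]
  congr 1
  rw [nr, nr]
  have h1 : (Dbl.star x).fst = conj x.fst := rfl
  have h2 : (Dbl.star x).snd = -x.snd := rfl
  rw [h1, h2, Zt.ab_conj]
  congr 1
  simp [Zt.ab]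

/-- the complementary factor: `x * cf x = cf x * x = nu x` -/
def cf (x : T9) : T9 := Dbl.star x * Dbl.C (Zt.C (Cub.sig (nr x) * Cub.sig (Cub.sig (nr x))))

/-- an integer in `T9` -/
def cz (n : ℤ) : T9 := Dbl.C (Zt.C (Cub.C n))

theorem CC_comm (r : P9) (x : T9) : Dbl.C (Zt.C r) * x = x * Dbl.C (Zt.C r) :=
  C_comm (Zt.conj_C r) x

theorem mul_cf (x : T9) : x * cf x = cz (nu x) := by
  rw [cf, ← mul_assoc, Dbl.mul_star, nrd_nr, ← map_mul, ← map_mul, ← mul_assoc, Cub.nm_spec]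
  rfl

theorem cf_mul (x : T9) : cf x * x = cz (nu x) := by
  rw [cf, mul_assoc, CC_comm, ← mul_assoc, Dbl.star_mul_self, nrd_nr, ← map_mul, ← map_mul,
    ← mul_assoc, Cub.nm_spec]
  rfl

theorem cz_comm (n : ℤ) (x : T9) : cz n * x = x * cz n := CC_comm _ x

theorem nu_cf (x : T9) : nu (cf x) = nu x ^ 5 := by
  rw [cf, nu_mul, nu_star]
  have h : nu (Dbl.C (Zt.C (Cub.sig (nr x) * Cub.sig (Cub.sig (nr x))))) = nu x ^ 4 := by
    rw [nu, nr_C, Zt.ab_C, Cub.nm_mul, Cub.nm_mul, Cub.nm_sig, Cub.nm_sig, Cub.nm_sig, nu]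
    ring
  rw [h]
  ring

theorem nu_cz (n : ℤ) : nu (cz n) = n ^ 6 := by
  rw [nu, cz, nr_C, Zt.ab_C, Cub.nm_mul, Cub.nm_C]
  ring

theorem cz_intCast (n : ℤ) : cz n = (n : T9) := rfl

/-! ### coordinates -/

/-- the coordinates in the basis `1, ζ, ζ²` over `ℤ[ω]` -/
def cd (x : T9) : Ix → ℤ := fun c =>
  ![![x.fst.re.x0 + 2 * x.fst.re.x2 + x.fst.im.x1,
      x.fst.re.x1 - x.fst.re.x2 + x.fst.im.x0 + 2 * x.fst.im.x2,
      -x.fst.re.x1 + x.fst.re.x2 + x.fst.im.x1 - x.fst.im.x2,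
      x.snd.re.x0 + 2 * x.snd.re.x2 + x.snd.im.x1,
      x.snd.re.x1 - x.snd.re.x2 + x.snd.im.x0 + 2 * x.snd.im.x2,
      -x.snd.re.x1 + x.snd.re.x2 + x.snd.im.x1 - x.snd.im.x2],
    ![x.fst.im.x2, -x.fst.re.x2, -x.fst.re.x1 - x.fst.im.x2,
      x.snd.im.x2, -x.snd.re.x2, -x.snd.re.x1 - x.snd.im.x2]] c.1 c.2

theorem cd_sub (x y : T9) : cd (x - y) = cd x - cd y := by
  funext ⟨i, k⟩
  fin_cases i <;> fin_cases k <;> simp [cd] <;> ring

theorem cd_cz (n : ℤ) (x : T9) : cd (cz n * x) = fun c => n * cd x c := by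
  funext ⟨i, k⟩
  fin_cases i <;> fin_cases k <;> simp [cd, cz] <;> ring

/-- the inverse of the coordinate map -/
def dc (z : Ix → ℤ) : T9 :=
  ⟨⟨⟨z (0, 0) + z (1, 1) - z (0, 2) + z (1, 2), -z (1, 2) - z (1, 0), -z (1, 1)⟩,
    ⟨z (0, 1) + z (1, 2) - z (1, 0) - z (1, 1), z (0, 2) - z (1, 2) + z (1, 1), z (1, 0)⟩⟩,
   ⟨⟨z (0, 3) + z (1, 4) - z (0, 5) + z (1, 5), -z (1, 5) - z (1, 3), -z (1, 4)⟩,
    ⟨z (0, 4) + z (1, 5) - z (1, 3) - z (1, 4), z (0, 5) - z (1, 5) + z (1, 4), z (1, 3)⟩⟩⟩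

theorem cd_dc (z : Ix → ℤ) : cd (dc z) = z := by
  funext ⟨i, k⟩
  fin_cases i <;> fin_cases k <;> simp [cd, dc] <;> ring

theorem tr_cd (x : T9) : (Cub.tr (nr x) : ℤ) = 3 * ∑ k : Fin 6,
    (cd x (0, k) * cd x (0, k) - cd x (0, k) * cd x (1, k) + cd x (1, k) * cd x (1, k)) := by
  simp [Fin.sum_univ_succ, cd, Cub.tr, nr, Zt.ab]
  ring

/-- elements of large norm have a large trace -/
theorem tr_ge (x : T9) {m : ℤ} (hm : 0 ≤ m) (h : m ^ 3 ≤ nu x) : 3 * m ≤ Cub.tr (nr x) := by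
  by_contra hcon
  have h1 := amgm (TN_nr x)
  have h2 := (TN_nr x).tr_nonneg
  have h3 : Cub.tr (nr x) ^ 3 < (3 * m) ^ 3 := pow_lt_pow_left₀ (not_le.1 hcon) h2 (by norm_num)
  have h4 : 27 * nu x < 27 * m ^ 3 := by
    calc 27 * nu x = 27 * Cub.nm (nr x) := rfl
      _ ≤ _ := h1
      _ < _ := h3
      _ = 27 * m ^ 3 := by ring
  linarith

/-- the packing bound -/
theorem packT {κ : Type} [Fintype κ] (u0 : T9) (hu0 : u0 ≠ 0) (u : κ → T9)
    (H : ∀ i j (z : T9), (i ≠ j ∨ z ≠ 0) → nu u0 ≤ nu (u i - u j - z * u0)) :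
    Fintype.card κ < 289 := by
  classical
  have hN : 0 < nu u0 := nu_pos hu0
  have hNr : (0 : ℝ) < nu u0 := by exact_mod_cast hN
  set e := Fintype.equivFin κ with he
  refine pack12 (Fintype.card κ) (fun i c => (cd (u (e.symm i) * cf u0) c : ℝ) / nu u0) ?_
  intro i j z hz
  set w := u (e.symm i) - u (e.symm j) - dc z * u0 with hw
  have h1 : nu u0 ≤ nu w := by
    apply H
    rcases hz with h | h
    · exact Or.inl (fun h' => h (e.symm.injective h'))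
    · right
      intro h'
      apply h
      rw [← cd_dc z, h']
      funext c
      obtain ⟨i, k⟩ := c
      fin_cases i <;> fin_cases k <;> simp [cd]
  have h2 : (nu u0 ^ 2) ^ 3 ≤ nu (w * cf u0) := by
    rw [nu_mul, nu_cf]
    calc (nu u0 ^ 2) ^ 3 = nu u0 * nu u0 ^ 5 := by ring
      _ ≤ _ := mul_le_mul_of_nonneg_right h1 (by positivity)
  have h3 := tr_ge (w * cf u0) (by positivity) h2
  rw [tr_cd] at h3
  have h4 : nu u0 ^ 2 ≤ ∑ k : Fin 6,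
    (cd (w * cf u0) (0, k) * cd (w * cf u0) (0, k) - cd (w * cf u0) (0, k) * cd (w * cf u0) (1, k) +
      cd (w * cf u0) (1, k) * cd (w * cf u0) (1, k)) := by linarith
  have h5 : ∀ c, (cd (u (e.symm i) * cf u0) c : ℝ) / nu u0 -
      (cd (u (e.symm j) * cf u0) c : ℝ) / nu u0 - (z c : ℝ) =
      (cd (w * cf u0) c : ℝ) / nu u0 := by
    intro c
    have h6 : w * cf u0 = u (e.symm i) * cf u0 - u (e.symm j) * cf u0 - cz (nu u0) * dc z := by
      rw [hw, sub_mul, sub_mul, mul_assoc (dc z), mul_cf, cz_comm]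
    have h7 : cd (w * cf u0) c = cd (u (e.symm i) * cf u0) c - cd (u (e.symm j) * cf u0) c -
        nu u0 * z c := by
      rw [h6, cd_sub, cd_sub, cd_cz, cd_dc]
      rfl
    rw [h7]
    push_cast
    field_simp
  have h8 : ((fun c => (cd (u (e.symm i) * cf u0) c : ℝ) / nu u0) -
      (fun c => (cd (u (e.symm j) * cf u0) c : ℝ) / nu u0) - fun c => (z c : ℝ)) =
      fun c => (cd (w * cf u0) c : ℝ) / nu u0 := by
    funext c
    exact h5 c
  rw [h8, QF]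
  have h9 : ∑ k : Fin 6, ((cd (w * cf u0) (0, k) : ℝ) / nu u0 * ((cd (w * cf u0) (0, k) : ℝ) / nu u0) -
      (cd (w * cf u0) (0, k) : ℝ) / nu u0 * ((cd (w * cf u0) (1, k) : ℝ) / nu u0) +
      (cd (w * cf u0) (1, k) : ℝ) / nu u0 * ((cd (w * cf u0) (1, k) : ℝ) / nu u0)) =
      ((∑ k : Fin 6, (cd (w * cf u0) (0, k) * cd (w * cf u0) (0, k) -
        cd (w * cf u0) (0, k) * cd (w * cf u0) (1, k) +
        cd (w * cf u0) (1, k) * cd (w * cf u0) (1, k)) : ℤ) : ℝ) / (nu u0 : ℝ) ^ 2 := by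
    push_cast
    rw [Finset.sum_div]
    apply Finset.sum_congr rfl
    intro k _
    field_simp
  rw [h9, le_div_iff₀ (by positivity), one_mul]
  exact_mod_cast h4

end Vale.Agent.P246.Max9
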