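import Vale.Agent.P246.Max9.M1
import Mathlib.RingTheory.Ideal.Span
import Mathlib.Data.ZMod.Units

/-!
# Elements of prime order modulo a principal left ideal: large primes
-/

set_option linter.all false

namespace Vale.Agent.P246.Max9

open Vale.Agent.P246.Q24 Vale.Agent.P246.Cyc

/-- minimality of `u0` in `I` -/
structure MinGen (I : Submodule T9 T9) (u0 : T9) : Prop where
  mem : u0 ∈ I
  ne : u0 ≠ 0
  min : ∀ u ∈ I, u ≠ 0 → nu u0 ≤ nu u

/-- membership in `T9 u0` -/
def InM (u0 u : T9) : Prop := ∃ t : T9, u = t * u0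

variable {u0 : T9}

theorem InM.add {u v : T9} (hu : InM u0 u) (hv : InM u0 v) : InM u0 (u + v) := by
  obtain ⟨s, rfl⟩ := hu
  obtain ⟨t, rfl⟩ := hv
  exact ⟨s + t, by rw [add_mul]⟩

theorem InM.sub {u v : T9} (hu : InM u0 u) (hv : InM u0 v) : InM u0 (u - v) := by
  obtain ⟨s, rfl⟩ := hu
  obtain ⟨t, rfl⟩ := hv
  exact ⟨s - t, by rw [sub_mul]⟩

theorem InM.neg {u : T9} (hu : InM u0 u) : InM u0 (-u) := by
  obtain ⟨s, rfl⟩ := hu
  exact ⟨-s, by rw [neg_mul]⟩

theorem InM.mul {u : T9} (a : T9) (hu : InM u0 u) : InM u0 (a * u) := by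
  obtain ⟨s, rfl⟩ := hu
  exact ⟨a * s, by rw [mul_assoc]⟩

theorem InM.cop {u : T9} {a b : ℤ} (h : IsCoprime a b) (ha : InM u0 (cz a * u))
    (hb : InM u0 (cz b * u)) : InM u0 u := by
  obtain ⟨x, y, hxy⟩ := h
  have h1 : u = cz x * (cz a * u) + cz y * (cz b * u) := by
    rw [← mul_assoc, ← mul_assoc, ← add_mul, cz_intCast, cz_intCast, cz_intCast, cz_intCast,
      ← Int.cast_mul, ← Int.cast_mul, ← Int.cast_add, hxy, Int.cast_one, one_mul]
  rw [h1]
  exact (ha.mul _).add (hb.mul _)

theorem cz_mul (a b : ℤ) : cz (a * b) = cz a * cz b := by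
  rw [cz_intCast, cz_intCast, cz_intCast, Int.cast_mul]
theorem cz_sub (a b : ℤ) : cz (a - b) = cz a - cz b := by
  rw [cz_intCast, cz_intCast, cz_intCast, Int.cast_sub]
theorem cz_add (a b : ℤ) : cz (a + b) = cz a + cz b := by
  rw [cz_intCast, cz_intCast, cz_intCast, Int.cast_add]
theorem cz_one : cz 1 = 1 := by rw [cz_intCast, Int.cast_one]
theorem cz_neg (a : ℤ) : cz (-a) = -cz a := by
  rw [cz_intCast, cz_intCast, Int.cast_neg]

/-- the packing bound for classes modulo `T9 u0` -/
theorem pack_classes {I : Submodule T9 T9} (h0 : MinGen I u0) {κ : Type} [Fintype κ]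
    (u : κ → T9) (hu : ∀ k, u k ∈ I) (hne : ∀ i j, i ≠ j → ¬ InM u0 (u i - u j)) :
    Fintype.card κ < 289 := by
  apply packT u0 h0.ne u
  intro i j z hz
  apply h0.min
  · exact I.sub_mem (I.sub_mem (hu i) (hu j)) (I.smul_mem z h0.mem)
  · intro h
    by_cases hij : i = j
    · subst hij
      rcases hz with hz | hz
      · exact hz rfl
      · rw [sub_self, zero_sub, neg_eq_zero] at h
        rcases mz h with h1 | h1
        · exact hz h1
        · exact h0.ne h1
    · exact hne i j hij ⟨z, sub_eq_zero.1 h⟩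

/-- `ζ` in `T9` -/
def zt : T9 := Dbl.C (Zt.zeta P9)
/-- `ζ⁻¹` in `T9` -/
def zt' : T9 := Dbl.C (conj (Zt.zeta P9))
/-- `j` -/
def jj : T9 := ⟨0, 1⟩
/-- `η` -/
def et : T9 := Dbl.C (Zt.C eta)

theorem zt'_zt : zt' * zt = 1 := by decide +kernel
theorem zt_zt' : zt * zt' = 1 := by decide +kernel
theorem jj_zt : jj * zt = zt' * jj := by decide +kernel
theorem jj_jj : jj * jj = -1 := by decide +kernel
theorem et_eq : et = zt + zt' := by decide +kernel
theorem et_sq : (Dbl.C (Zt.C (⟨1, -1, 1⟩ : P9)) : T9) * (et * et - cz 4) = cz (-3) := by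
  decide +kernel

/-- if `ζ` and `j` act as integers on `u` modulo `T9 u0`, then `3 u ∈ T9 u0` -/
theorem three_of_scalar {u : T9} {k l : ℤ} (h1 : InM u0 (zt * u - cz k * u))
    (h2 : InM u0 (jj * u - cz l * u)) : InM u0 (cz (-3) * u) := by
  -- `(l² + 1) u ∈ M`
  have a1 : InM u0 (cz (l * l + 1) * u) := by
    have e : cz (l * l + 1) * u = -(jj * (jj * u - cz l * u) + cz l * (jj * u - cz l * u)) := by
      have c := cz_comm l jj
      rw [cz_add, cz_mul, cz_one]
      have : jj * (jj * u - cz l * u) + cz l * (jj * u - cz l * u) =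
        (jj * jj) * u - (jj * cz l) * u + (cz l * jj) * u - cz l * cz l * u := by noncomm_ring
      rw [this, jj_jj, c]
      noncomm_ring
    rw [e]
    exact ((h2.mul _).add (h2.mul _)).neg
  -- `u - k ζ⁻¹ u ∈ M`
  have a2 : InM u0 (u - cz k * (zt' * u)) := by
    have e : u - cz k * (zt' * u) = zt' * (zt * u - cz k * u) := by
      rw [mul_sub, ← mul_assoc zt' zt, zt'_zt, one_mul, ← mul_assoc, ← mul_assoc, cz_comm]
    rw [e]
    exact h1.mul _
  -- `l ζ⁻¹ u - k l u ∈ M`
  have a3 : InM u0 (cz l * (zt' * u) - cz k * (cz l * u)) := by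
    have e : cz l * (zt' * u) - cz k * (cz l * u) =
        jj * (zt * u - cz k * u) - zt' * (jj * u - cz l * u) + cz k * (jj * u - cz l * u) := by
      have e1 : jj * (zt * u - cz k * u) = zt' * (jj * u) - cz k * (jj * u) := by
        rw [mul_sub, ← mul_assoc jj zt, jj_zt, mul_assoc, ← mul_assoc jj (cz k), ← cz_comm,
          mul_assoc]
      have e2 : zt' * (jj * u - cz l * u) = zt' * (jj * u) - cz l * (zt' * u) := by
        rw [mul_sub, ← mul_assoc zt' (cz l), ← cz_comm, mul_assoc]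
      rw [e1, e2, mul_sub (cz k)]
      abel
    rw [e]
    exact ((h1.mul _).sub (h2.mul _)).add (h2.mul _)
  -- `ζ⁻¹ u - k u ∈ M`
  have a4 : InM u0 (zt' * u - cz k * u) := by
    have e : zt' * u - cz k * u = zt' * (cz (l * l + 1) * u) - cz k * (cz (l * l + 1) * u) -
        cz l * (cz l * (zt' * u) - cz k * (cz l * u)) := by
      have c : zt' * cz (l * l + 1) = cz (l * l + 1) * zt' := (cz_comm _ _).symm
      rw [← mul_assoc zt', c, cz_add, cz_mul, cz_one]
      have c2 : cz l * cz k = cz k * cz l := cz_comm _ _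
      have : cz l * (cz l * (zt' * u) - cz k * (cz l * u)) =
        cz l * cz l * (zt' * u) - (cz l * cz k) * (cz l * u) := by noncomm_ring
      rw [this, c2]
      noncomm_ring
    rw [e]
    exact ((a1.mul _).sub (a1.mul _)).sub (a3.mul _)
  -- `(1 - k²) u ∈ M`
  have a5 : InM u0 (u - cz k * (cz k * u)) := by
    have e : u - cz k * (cz k * u) = (u - cz k * (zt' * u)) + cz k * (zt' * u - cz k * u) := by
      rw [mul_sub]; abel
    rw [e]
    exact a2.add (a4.mul _)
  -- `η u - 2 k u ∈ M`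
  have a6 : InM u0 (et * u - cz 2 * (cz k * u)) := by
    have e : et * u - cz 2 * (cz k * u) = (zt * u - cz k * u) + (zt' * u - cz k * u) := by
      have : cz 2 = 1 + 1 := by
        rw [show (2 : ℤ) = 1 + 1 from rfl, cz_add, cz_one]
      rw [et_eq, this]
      noncomm_ring
    rw [e]
    exact h1.add a4
  have a7 : InM u0 ((et * et - cz 4) * u) := by
    have e : (et * et - cz 4) * u = et * (et * u - cz 2 * (cz k * u)) +
        cz 2 * (cz k * (et * u - cz 2 * (cz k * u))) -
        cz 4 * (u - cz k * (cz k * u)) := by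
      have c1 : et * cz 2 = cz 2 * et := (cz_comm _ _).symm
      have c2 : et * cz k = cz k * et := (cz_comm _ _).symm
      have c3 : cz k * cz 2 = cz 2 * cz k := cz_comm _ _
      have c4 : cz 4 = cz 2 * cz 2 := by rw [← cz_mul]; rfl
      have : et * (et * u - cz 2 * (cz k * u)) + cz 2 * (cz k * (et * u - cz 2 * (cz k * u))) -
          cz 4 * (u - cz k * (cz k * u)) = et * et * u - (et * cz 2) * (cz k * u) +
          cz 2 * (cz k * (et * u)) - cz 2 * (cz k * cz 2) * (cz k * u) - cz 4 * u +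
          cz 4 * (cz k * (cz k * u)) := by noncomm_ring
      rw [this, c1, c3, c4]
      have : cz 2 * et * (cz k * u) = cz 2 * ((et * cz k) * u) := by noncomm_ring
      rw [this, c2]
      noncomm_ring
    rw [e]
    exact ((a6.mul _).add ((a6.mul _).mul _)).sub (a5.mul _)
  rw [← et_sq, mul_assoc]
  exact a7.mul _

/-- a prime `p ≥ 17` is impossible -/
theorem not_large {I : Submodule T9 T9} (h0 : MinGen I u0) {p : ℕ} (hp : p.Prime) (hp3 : p ≠ 3)
    {u : T9} (hu : u ∈ I) (hpu : InM u0 (cz p * u)) (hnu : ¬ InM u0 u) : p < 17 := by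
  -- a non-scalar
  have hc : ∃ c : T9, ∀ k : ℤ, ¬ InM u0 (c * u - cz k * u) := by
    by_contra hcon
    push Not at hcon
    obtain ⟨k, hk⟩ := hcon zt
    obtain ⟨l, hl⟩ := hcon jj
    have h3 := three_of_scalar hk hl
    apply hnu
    refine InM.cop ?_ hpu h3
    have : IsCoprime (p : ℤ) (3 : ℤ) := by
      exact_mod_cast Nat.isCoprime_iff_coprime.2 ((Nat.coprime_primes hp Nat.prime_three).2 hp3)
    exact this.neg_right
  obtain ⟨c, hc⟩ := hc
  have hcop : ∀ d : ℤ, d ≠ 0 → |d| < p → IsCoprime d (p : ℤ) := by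
    intro d hd hdp
    rw [isCoprime_comm, (Nat.prime_iff_prime_int.1 hp).coprime_iff_not_dvd]
    intro hdvd
    exact absurd (Int.le_of_dvd (abs_pos.2 hd) ((dvd_abs _ _).2 hdvd)) (not_le.2 hdp)
  have hcard := pack_classes h0 (κ := Fin p × Fin p)
    (fun k => cz (k.1 : ℕ) * u + cz (k.2 : ℕ) * (c * u))
    (fun k => I.add_mem (I.smul_mem _ hu) (I.smul_mem _ (I.smul_mem _ hu))) (by
      rintro ⟨a, b⟩ ⟨a', b'⟩ hne hM
      simp only at hM
      have e : cz (a : ℕ) * u + cz (b : ℕ) * (c * u) - (cz (a' : ℕ) * u + cz (b' : ℕ) * (c * u)) =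
          cz ((a : ℕ) - (a' : ℕ)) * u + cz ((b : ℕ) - (b' : ℕ)) * (c * u) := by
        rw [cz_sub, cz_sub]
        noncomm_ring
      rw [e] at hM
      by_cases hb : b = b'
      · subst hb
        have ha : a ≠ a' := fun h => hne (by rw [h])
        rw [sub_self, cz_intCast 0, Int.cast_zero, zero_mul, add_zero] at hM
        refine hnu (InM.cop (hcop _ ?_ ?_) hM hpu)
        · intro h
          apply ha
          apply Fin.ext
          omega
        · rw [abs_lt]
          constructor <;> omega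
      · obtain ⟨x, y, hxy⟩ := hcop ((b : ℕ) - (b' : ℕ)) (fun h => hb (Fin.ext (by omega)))
          (by rw [abs_lt]; constructor <;> omega)
        apply hc (-(x * ((a : ℕ) - (a' : ℕ))))
        have e2 : c * u - cz (-(x * ((a : ℕ) - (a' : ℕ)))) * u =
            cz x * (cz ((a : ℕ) - (a' : ℕ)) * u + cz ((b : ℕ) - (b' : ℕ)) * (c * u)) +
            cz y * (c * (cz p * u)) := by
          have e3 : (1 : T9) = cz x * cz ((b : ℕ) - (b' : ℕ)) + cz y * cz p := by
            rw [← cz_mul, ← cz_mul, ← cz_add, hxy, cz_one]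
          have e4 : c * u = (cz x * cz ((b : ℕ) - (b' : ℕ)) + cz y * cz p) * (c * u) := by
            rw [← e3, one_mul]
          rw [cz_neg, cz_mul]
          conv_lhs => rw [e4]
          have e5 : c * (cz (p : ℤ) * u) = cz (p : ℤ) * (c * u) := by
            rw [← mul_assoc, ← cz_comm, mul_assoc]
          rw [e5]
          noncomm_ring
        rw [e2]
        exact (hM.mul _).add ((hpu.mul _).mul _))
  rw [Fintype.card_prod, Fintype.card_fin] at hcard
  by_contra hcon
  have : 17 * 17 ≤ p * p := Nat.mul_le_mul (not_lt.1 hcon) (not_lt.1 hcon)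
  omega

end Vale.Agent.P246.Max9
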