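import Vale.Agent.P246.Max9.M2

/-!
# Elements of prime order modulo a principal left ideal: `p = 5, 7, 11, 13`
-/

set_option linter.all false

namespace Vale.Agent.P246.Max9

open Vale.Agent.P246.Q24 Vale.Agent.P246.Cyc

instance {K : Type} {i : Bool} [Fintype K] : Fintype (Cub K i) :=
  Fintype.ofEquiv (K × K × K) ⟨fun x => ⟨x.1, x.2.1, x.2.2⟩, fun x => (x.x0, x.x1, x.x2),
    fun _ => rfl, fun _ => rfl⟩

theorem card_Cub {K : Type} {i : Bool} [Fintype K] :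
    Fintype.card (Cub K i) = Fintype.card K * (Fintype.card K * Fintype.card K) := by
  rw [← Fintype.card_prod, ← Fintype.card_prod]
  exact (Fintype.card_congr ⟨fun x => ⟨x.1, x.2.1, x.2.2⟩, fun x => (x.x0, x.x1, x.x2),
    fun _ => rfl, fun _ => rfl⟩).symm

variable {u0 : T9}

/-- if `z u ∈ M` and the norm of `z` is prime to `p`, then `u ∈ M` -/
theorem InM_of_nn {p : ℕ} {u : T9} (hpu : InM u0 (cz p * u)) (z : Z9)
    (hz : IsCoprime (nn z) (p : ℤ)) (h : InM u0 (Dbl.C z * u)) : InM u0 u := by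
  refine InM.cop hz ?_ hpu
  have h1 : cz (nn z) * u = Dbl.C (cof z) * (Dbl.C z * u) := by
    rw [← mul_assoc, ← map_mul, mul_comm (cof z), mul_cof]
    rfl
  rw [h1]
  exact h.mul _

/-- the lift of residues -/
def lf (p : ℕ) (r : Cub (ZMod p) true) : P9 := ⟨(r.x0.val : ℤ), (r.x1.val : ℤ), (r.x2.val : ℤ)⟩

/-- the residue -/
def rs (p : ℕ) : P9 →+* Cub (ZMod p) true := Cub.map (Int.castRingHom (ZMod p))

theorem rs_lf (p : ℕ) [NeZero p] (r : Cub (ZMod p) true) : rs p (lf p r) = r := by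
  ext <;> simp [rs, lf]

theorem cop_of_rs {p : ℕ} (hp : p.Prime) (n : P9) (h : Cub.nm (rs p n) ≠ 0) :
    IsCoprime (Cub.nm n) (p : ℤ) := by
  rw [isCoprime_comm, (Nat.prime_iff_prime_int.1 hp).coprime_iff_not_dvd]
  intro h2
  apply h
  rw [rs, Cub.map_nm]
  exact (ZMod.intCast_zmod_eq_zero_iff_dvd _ p).2 h2

theorem not_field_aux {p : ℕ} (hp : p.Prime)
    (hF : ∀ r : Cub (ZMod p) true, Cub.nm r = 0 → r = 0)
    {u : T9} (hpu : InM u0 (cz p * u)) (hnu : ¬ InM u0 u) (r r' : Cub (ZMod p) true)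
    (hne : r ≠ r') :
    ¬ InM u0 (Dbl.C (Zt.C (lf p r)) * u - Dbl.C (Zt.C (lf p r')) * u) := by
  intro hM
  haveI : NeZero p := ⟨hp.ne_zero⟩
  have e1 : Dbl.C (Zt.C (lf p r)) * u - Dbl.C (Zt.C (lf p r')) * u =
    Dbl.C (Zt.C (lf p r - lf p r')) * u := by rw [map_sub, map_sub, sub_mul]
  rw [e1] at hM
  apply hnu
  apply InM_of_nn hpu _ _ hM
  have h1 : IsCoprime (Cub.nm (lf p r - lf p r')) (p : ℤ) := by
    apply cop_of_rs hp
    intro h3
    apply hne
    have h4 := hF _ h3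
    rw [map_sub, rs_lf, rs_lf] at h4
    exact sub_eq_zero.1 h4
  rw [nn_C]
  exact h1.mul_left h1

theorem not_field {I : Submodule T9 T9} (h0 : MinGen I u0) {p : ℕ} (hp : p.Prime) (hp7 : 7 ≤ p)
    (hF : ∀ r : Cub (ZMod p) true, Cub.nm r = 0 → r = 0)
    {u : T9} (hu : u ∈ I) (hpu : InM u0 (cz p * u)) (hnu : ¬ InM u0 u) : False := by
  haveI : NeZero p := ⟨hp.ne_zero⟩
  have hcard := pack_classes h0 (fun r : Cub (ZMod p) true => Dbl.C (Zt.C (lf p r)) * u)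
    (fun r => I.smul_mem _ hu) (not_field_aux hp hF hpu hnu)
  rw [card_Cub, ZMod.card] at hcard
  have h1 : 7 * 7 ≤ p * p := Nat.mul_le_mul hp7 hp7
  have h2 : 7 * (7 * 7) ≤ p * (p * p) := Nat.mul_le_mul hp7 h1
  omega

theorem field7 : ∀ r : Cub (ZMod 7) true, Cub.nm r = 0 → r = 0 := by decide +kernel
theorem field11 : ∀ r : Cub (ZMod 11) true, Cub.nm r = 0 → r = 0 := by decide +kernel
theorem field13 : ∀ r : Cub (ZMod 13) true, Cub.nm r = 0 → r = 0 := by decide +kernel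

/-- the norm of `r + s ζ` modulo five -/
theorem field5 : ∀ r : Cub (ZMod 5) true, ∀ s : ZMod 5,
    Cub.nm (Zt.ab (⟨r, ⟨s, 0, 0⟩⟩ : Zt (Cub (ZMod 5) true))) = 0 → r = 0 ∧ s = 0 := by
  decide +kernel

/-- the lift of residues -/
def lf5 (r : Cub (ZMod 5) true × ZMod 5) : Z9 := ⟨lf 5 r.1, ⟨(r.2.val : ℤ), 0, 0⟩⟩

theorem rs_ab_lf5 (r r' : Cub (ZMod 5) true × ZMod 5) : rs 5 (Zt.ab (lf5 r - lf5 r')) =
    Zt.ab (⟨r.1 - r'.1, ⟨r.2 - r'.2, 0, 0⟩⟩ : Zt (Cub (ZMod 5) true)) := by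
  have e2 : rs 5 eta = eta := Cub.map_eta _
  have e3 : rs 5 ((lf5 r - lf5 r').im) = ⟨r.2 - r'.2, 0, 0⟩ := by
    ext <;> simp [rs, lf5]
  have e4 : rs 5 ((lf5 r - lf5 r').re) = r.1 - r'.1 := by
    change rs 5 (lf 5 r.1 - lf 5 r'.1) = _
    rw [map_sub, rs_lf, rs_lf]
  rw [Zt.ab, map_add, map_add, map_mul, map_mul, map_mul, map_mul, e2, e3, e4, Zt.ab]

theorem not_five_aux {u : T9} (hpu : InM u0 (cz (5 : ℕ) * u)) (hnu : ¬ InM u0 u)
    (r r' : Cub (ZMod 5) true × ZMod 5) (hne : r ≠ r') :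
    ¬ InM u0 (Dbl.C (lf5 r) * u - Dbl.C (lf5 r') * u) := by
  intro hM
  have e1 : Dbl.C (lf5 r) * u - Dbl.C (lf5 r') * u = Dbl.C (lf5 r - lf5 r') * u := by
    rw [map_sub, sub_mul]
  rw [e1] at hM
  apply hnu
  apply InM_of_nn hpu _ _ hM
  rw [nn]
  apply cop_of_rs Nat.prime_five
  intro h3
  apply hne
  rw [rs_ab_lf5] at h3
  obtain ⟨h4, h5⟩ := field5 _ _ h3
  exact Prod.ext (sub_eq_zero.1 h4) (sub_eq_zero.1 h5)

theorem not_five {I : Submodule T9 T9} (h0 : MinGen I u0)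
    {u : T9} (hu : u ∈ I) (hpu : InM u0 (cz (5 : ℕ) * u)) (hnu : ¬ InM u0 u) : False := by
  have hcard := pack_classes h0 (fun r : Cub (ZMod 5) true × ZMod 5 => Dbl.C (lf5 r) * u)
    (fun r => I.smul_mem _ hu) (not_five_aux hpu hnu)
  rw [Fintype.card_prod, card_Cub, ZMod.card] at hcard
  omega

/-- only `p = 2, 3` remain -/
theorem small_prime {I : Submodule T9 T9} (h0 : MinGen I u0) {p : ℕ} (hp : p.Prime)
    {u : T9} (hu : u ∈ I) (hpu : InM u0 (cz p * u)) (hnu : ¬ InM u0 u) : p = 2 ∨ p = 3 := by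
  by_cases hp3 : p = 3
  · exact Or.inr hp3
  have h17 := not_large h0 hp hp3 hu hpu hnu
  interval_cases p
  · exact absurd hp (by norm_num)
  · exact absurd hp (by norm_num)
  · exact Or.inl rfl
  · exact absurd rfl hp3
  · exact absurd hp (by norm_num)
  · exact (not_five h0 hu hpu hnu).elim
  · exact absurd hp (by norm_num)
  · exact (not_field h0 hp (by norm_num) field7 hu hpu hnu).elim
  · exact absurd hp (by norm_num)
  · exact absurd hp (by norm_num)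
  · exact absurd hp (by norm_num)
  · exact (not_field h0 hp (by norm_num) field11 hu hpu hnu).elim
  · exact absurd hp (by norm_num)
  · exact (not_field h0 hp (by norm_num) field13 hu hpu hnu).elim
  · exact absurd hp (by norm_num)
  · exact absurd hp (by norm_num)
  · exact absurd hp (by norm_num)

end Vale.Agent.P246.Max9
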