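import Vale.Agent.P246.Max9.M3

/-!
# Elements of prime order modulo a principal left ideal: `p = 2, 3`; transitivity
-/

set_option linter.all false

namespace Vale.Agent.P246.Max9

open Vale.Agent.P246.Q24 Vale.Agent.P246.Cyc

variable {u0 : T9}

/-! ### the prime two -/

/-- `𝔽_8` -/
abbrev F8 : Type := Cub (ZMod 2) true
/-- `𝔽_64` -/
abbrev F64 : Type := Zt F8

instance {K : Type} [Fintype K] : Fintype (Zt K) :=
  Fintype.ofEquiv (K × K) ⟨fun x => ⟨x.1, x.2⟩, fun x => (x.re, x.im),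
    fun _ => rfl, fun _ => rfl⟩

/-- reduction modulo two -/
def z2 : Z9 →+* F64 := Zt.map (Cub.map (Int.castRingHom (ZMod 2))) (Cub.map_eta _)

theorem z2_conj (x : Z9) : z2 (conj x) = conj (z2 x) := Zt.map_conj _ _ x

/-- reduction modulo two -/
def t2 : T9 →+* Dbl F64 true := Dbl.map z2 z2_conj

theorem F8_inv : ∀ a : F8, a ≠ 0 → ∃ b : F8, b * a = 1 := by decide +kernel

theorem F64_ab : ∀ a : F64, Zt.ab a = 0 → a = 0 := by decide +kernel

/-- elements of norm one are powers of `ζ` -/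
theorem F64_one : ∀ a : F64, Zt.ab a = 1 → ∃ k ∈ Finset.range 9, z2 (Zt.zeta P9 ^ k) = a := by
  decide +kernel

theorem F8_add : ∀ a b : F8, a + b = 0 → a = b := by decide +kernel

theorem ab_zeta_pow (k : ℕ) : Zt.ab (Zt.zeta P9 ^ k) = 1 := by
  induction k with
  | zero => rw [pow_zero, Zt.ab_one]
  | succ k ih =>
    rw [pow_succ, Zt.ab_mul, ih, one_mul]
    decide +kernel

/-- every non-zero left ideal modulo two contains `1` or `ζ^k + j` -/
theorem two_gen (x : Dbl F64 true) (hx : x ≠ 0) :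
    ∃ z : Dbl F64 true, z * x = 1 ∨ ∃ k : ℕ, z * x = t2 ⟨Zt.zeta P9 ^ k, 1⟩ := by
  have hn : Dbl.nrd x = Zt.C (Zt.ab x.fst + Zt.ab x.snd) := by
    rw [map_add, ← Zt.mul_conj, ← Zt.mul_conj]
    simp [Dbl.nrd]
  by_cases h : Zt.ab x.fst + Zt.ab x.snd = 0
  · have h1 := F8_add _ _ h
    have h2 : Zt.ab x.snd ≠ 0 := by
      intro h2
      apply hx
      ext : 1
      · exact F64_ab _ (by rw [h1, h2])
      · exact F64_ab _ h2
    obtain ⟨e, he⟩ := F8_inv _ h2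
    have h3 : Zt.C e * conj x.snd * x.snd = 1 := by
      rw [mul_assoc, mul_comm (conj x.snd), Zt.mul_conj, ← map_mul, he, map_one]
    have h4 : Zt.ab (Zt.C e * conj x.snd * x.fst) = 1 := by
      rw [Zt.ab_mul, Zt.ab_mul, Zt.ab_C, Zt.ab_conj, h1]
      linear_combination (e * Zt.ab x.snd + 1) * he
    obtain ⟨k, -, hk⟩ := F64_one _ h4
    refine ⟨Dbl.C (Zt.C e * conj x.snd), Or.inr ⟨k, ?_⟩⟩
    ext : 1
    · change _ = z2 (Zt.zeta P9 ^ k)
      rw [hk]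
      simp
    · change _ = z2 1
      rw [map_one]
      simp [h3]
  · obtain ⟨e, he⟩ := F8_inv _ h
    refine ⟨Dbl.C (Zt.C e) * Dbl.star x, Or.inl ?_⟩
    rw [mul_assoc, Dbl.star_mul_self, hn, ← map_mul, ← map_mul, he, map_one, map_one]

theorem dvd2 {n : ℤ} (h : (Int.castRingHom (ZMod 2)) n = 0) : ∃ m, n = 2 * m :=
  (ZMod.intCast_zmod_eq_zero_iff_dvd n 2).1 h

theorem ker_p2 (x : P9) (h : Cub.map (Int.castRingHom (ZMod 2)) x = 0) : ∃ y, x = 2 * y := by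
  obtain ⟨a, ha⟩ := dvd2 (congrArg Cub.x0 h)
  obtain ⟨b, hb⟩ := dvd2 (congrArg Cub.x1 h)
  obtain ⟨c, hc⟩ := dvd2 (congrArg Cub.x2 h)
  exact ⟨⟨a, b, c⟩, by ext <;> simp [ha, hb, hc]⟩

theorem ker_z2 (x : Z9) (h : z2 x = 0) : ∃ y, x = 2 * y := by
  obtain ⟨a, ha⟩ := ker_p2 x.re (congrArg Zt.re h)
  obtain ⟨b, hb⟩ := ker_p2 x.im (congrArg Zt.im h)
  exact ⟨⟨a, b⟩, by ext : 1 <;> simp [ha, hb]⟩

theorem ker_t2 (x : T9) (h : t2 x = 0) : ∃ y, x = cz 2 * y := by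
  obtain ⟨a, ha⟩ := ker_z2 x.fst (congrArg Dbl.fst h)
  obtain ⟨b, hb⟩ := ker_z2 x.snd (congrArg Dbl.snd h)
  refine ⟨⟨a, b⟩, ?_⟩
  have h2 : cz 2 = 2 := by rw [cz_intCast]; norm_num
  rw [h2]
  ext : 1
  · simp [ha]
  · simp [hb]

theorem surj_t2 (y : Dbl F64 true) : ∃ x : T9, t2 x = y := by
  have h1 : ∀ a : F8, ∃ b : P9, Cub.map (Int.castRingHom (ZMod 2)) b = a := by
    intro a
    refine ⟨⟨(a.x0.val : ℤ), (a.x1.val : ℤ), (a.x2.val : ℤ)⟩, ?_⟩
    ext <;> simp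
  have h2 : ∀ a : F64, ∃ b : Z9, z2 b = a := by
    intro a
    obtain ⟨p, hp⟩ := h1 a.re
    obtain ⟨q, hq⟩ := h1 a.im
    exact ⟨⟨p, q⟩, by ext : 1 <;> [exact hp; exact hq]⟩
  obtain ⟨p, hp⟩ := h2 y.fst
  obtain ⟨q, hq⟩ := h2 y.snd
  exact ⟨⟨p, q⟩, by ext : 1 <;> [exact hp; exact hq]⟩

theorem cz_cancel {n : ℤ} (hn : n ≠ 0) {x y : T9} (h : cz n * x = cz n * y) : x = y := by
  have h1 : cz n * (x - y) = 0 := by rw [mul_sub, h, sub_self]
  rcases mz h1 with h2 | h2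
  · exfalso
    apply hn
    have h3 := congrArg nu h2
    rw [nu_cz, nu_zero.2 rfl] at h3
    exact pow_eq_zero_iff (by norm_num) |>.1 h3
  · exact sub_eq_zero.1 h2

theorem not_two {I : Submodule T9 T9} (h0 : MinGen I u0)
    {u : T9} (hu : u ∈ I) (hpu : InM u0 (cz 2 * u)) (hnu : ¬ InM u0 u) : False := by
  obtain ⟨x, hx⟩ := hpu
  have hx0 : t2 x ≠ 0 := by
    intro h
    obtain ⟨y, rfl⟩ := ker_t2 x h
    apply hnu
    refine ⟨y, ?_⟩
    rw [mul_assoc] at hx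
    exact cz_cancel (by norm_num) hx
  -- a small element
  have key : ∃ z w v : T9, z * x = w + cz 2 * v ∧ w ≠ 0 ∧ nu w < 64 := by
    obtain ⟨z, hz⟩ := two_gen _ hx0
    obtain ⟨z, rfl⟩ := surj_t2 z
    rcases hz with hz | ⟨k, hz⟩
    · obtain ⟨v, hv⟩ := ker_t2 (z * x - 1) (by rw [map_sub, map_mul, map_one, hz, sub_self])
      refine ⟨z, 1, v, ?_, ?_, ?_⟩
      · rw [← hv]; abel
      · intro h
        have h3 := congrArg nu h
        rw [nu_zero.2 rfl] at h3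
        revert h3
        decide +kernel
      · decide +kernel
    · obtain ⟨v, hv⟩ := ker_t2 (z * x - ⟨Zt.zeta P9 ^ k, 1⟩)
        (by rw [map_sub, map_mul, hz, sub_self])
      have hnu8 : nu ⟨Zt.zeta P9 ^ k, 1⟩ = 8 := by
        have : nr ⟨Zt.zeta P9 ^ k, 1⟩ = 1 + 1 := by
          rw [nr, ab_zeta_pow, Zt.ab_one]
        rw [nu, this]
        decide +kernel
      refine ⟨z, ⟨Zt.zeta P9 ^ k, 1⟩, v, ?_, ?_, ?_⟩
      · rw [← hv]; abel
      · intro h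
        rw [h, nu_zero.2 rfl] at hnu8
        norm_num at hnu8
      · rw [hnu8]; norm_num
  obtain ⟨z, w, v, h1, h2, h3⟩ := key
  have h4 : cz 2 * (z * u - v * u0) = w * u0 := by
    have : cz 2 * (z * u - v * u0) = z * (cz 2 * u) - cz 2 * v * u0 := by
      rw [mul_sub, ← mul_assoc, cz_comm, mul_assoc, mul_assoc]
    rw [this, hx, ← mul_assoc, h1, add_mul]
    abel
  have h5 : z * u - v * u0 ≠ 0 := by
    intro h
    rw [h, mul_zero] at h4
    rcases mz h4.symm with h | h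
    · exact h2 h
    · exact h0.ne h
  have h6 := h0.min _ (I.sub_mem (I.smul_mem z hu) (I.smul_mem v h0.mem)) h5
  have h7 := congrArg nu h4
  rw [nu_mul, nu_mul, nu_cz] at h7
  have h8 := nu_pos h0.ne
  change nu u0 ≤ nu (z * u - v * u0) at h6
  nlinarith

/-! ### the prime three -/

/-- `λ = 1 - ζ` -/
def lam : Z9 := ⟨1, -1⟩
/-- `λ` in `T9` -/
def ll : T9 := Dbl.C lam

theorem nu_ll : nu ll = 3 := by decide +kernel

theorem lam6 : lam ^ 6 = 3 * ⟨⟨-2, 9, -5⟩, ⟨-2, 12, -7⟩⟩ := by decide +kernel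

/-- `ℤ[η] → 𝔽_3` -/
def p3 : P9 →+* ZMod 3 := Cub.ev (Int.castRingHom (ZMod 3)) 2 (by decide)
/-- `ℤ[ζ_9] → 𝔽_3` -/
def z3 : Z9 →+* ZMod 3 := Zt.red1 p3 (by decide)

theorem z3_conj (x : Z9) : z3 (conj x) = conj (z3 x) := Zt.red1_conj p3 (by decide) x

/-- reduction modulo `λ` -/
def t3 : T9 →+* Dbl (ZMod 3) true := Dbl.map z3 z3_conj

theorem F9_inv : ∀ a b : ZMod 3, (⟨a, b⟩ : Dbl (ZMod 3) true) ≠ 0 →
    ∃ c d : ZMod 3, (⟨c, d⟩ : Dbl (ZMod 3) true) * ⟨a, b⟩ = 1 := by decide +kernel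

theorem z3_apply (x : Z9) : z3 x =
    ((x.re.x0 + 2 * x.re.x1 + 4 * x.re.x2 + x.im.x0 + 2 * x.im.x1 + 4 * x.im.x2 : ℤ) : ZMod 3) := by
  simp [z3, p3]
  ring

theorem ker_z3 (x : Z9) (h : z3 x = 0) : ∃ y, x = lam * y := by
  rw [z3_apply, ZMod.intCast_zmod_eq_zero_iff_dvd] at h
  obtain ⟨k, hk⟩ := h
  refine ⟨⟨⟨2, -2, -1⟩, ⟨1, 2, 1⟩⟩ * ⟨⟨k, 0, 0⟩, 0⟩ - ⟨⟨1, -1, 0⟩, ⟨1, 0, 0⟩⟩ *
    ⟨⟨x.re.x1 + x.im.x1 + 2 * (x.re.x2 + x.im.x2), x.re.x2 + x.im.x2, 0⟩, 0⟩ -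
    ⟨x.im, 0⟩, ?_⟩
  push_cast at hk
  ext <;> simp [lam] <;> first | ring1 | linear_combination hk | linear_combination -hk

theorem ker_t3 (x : T9) (h : t3 x = 0) : ∃ y, x = ll * y := by
  obtain ⟨a, ha⟩ := ker_z3 x.fst (congrArg Dbl.fst h)
  obtain ⟨b, hb⟩ := ker_z3 x.snd (congrArg Dbl.snd h)
  refine ⟨⟨a, b⟩, ?_⟩
  ext : 1
  · simp [ll, ha]
  · simp [ll, hb]

theorem surj_t3 (c d : ZMod 3) : ∃ x : T9, t3 x = ⟨c, d⟩ := by
  have h2 : ∀ a : ZMod 3, ∃ b : Z9, z3 b = a := by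
    intro a
    refine ⟨⟨⟨(a.val : ℤ), 0, 0⟩, 0⟩, ?_⟩
    rw [z3_apply]
    simp
  obtain ⟨p, hp⟩ := h2 c
  obtain ⟨q, hq⟩ := h2 d
  exact ⟨⟨p, q⟩, by ext : 1 <;> [exact hp; exact hq]⟩

/-- `conj λ = λ μ` -/
theorem conj_lam : conj lam = lam * -(conj (Zt.zeta P9)) := by decide +kernel

theorem mul_ll (z : T9) : ∃ z' : T9, z * ll = ll * z' := by
  refine ⟨⟨z.fst, z.snd * -(conj (Zt.zeta P9))⟩, ?_⟩
  ext : 1
  · simp [ll, mul_comm]
  · have := conj_lam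
    simp only [ll, Dbl.mul_snd, Dbl.C_fst, Dbl.C_snd, mul_zero, zero_add, zero_mul, add_zero]
    rw [conj_lam]
    ring

theorem ll_cancel {x y : T9} (h : ll * x = ll * y) : x = y := by
  have h1 : ll * (x - y) = 0 := by rw [mul_sub, h, sub_self]
  rcases mz h1 with h2 | h2
  · exfalso
    have h3 := nu_ll
    rw [h2, nu_zero.2 rfl] at h3
    norm_num at h3
  · exact sub_eq_zero.1 h2

theorem not_lam {I : Submodule T9 T9} (h0 : MinGen I u0)
    {u : T9} (hu : u ∈ I) (hpu : InM u0 (ll * u)) (hnu : ¬ InM u0 u) : False := by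
  obtain ⟨x, hx⟩ := hpu
  have hx0 : t3 x ≠ 0 := by
    intro h
    obtain ⟨y, rfl⟩ := ker_t3 x h
    apply hnu
    refine ⟨y, ?_⟩
    rw [mul_assoc] at hx
    exact ll_cancel hx
  obtain ⟨c, d, hcd⟩ := F9_inv (t3 x).fst (t3 x).snd hx0
  obtain ⟨z, hz⟩ := surj_t3 c d
  obtain ⟨w, hw⟩ := ker_t3 (z * x - 1) (by
    rw [map_sub, map_mul, map_one, hz]
    exact sub_eq_zero.2 hcd)
  obtain ⟨z', hz'⟩ := mul_ll z
  have h4 : ll * (z' * u - w * u0) = u0 := by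
    have h5 : z * x = 1 + ll * w := by rw [← hw]; abel
    calc ll * (z' * u - w * u0) = ll * z' * u - ll * w * u0 := by noncomm_ring
      _ = z * (ll * u) - ll * w * u0 := by rw [← hz', mul_assoc]
      _ = z * x * u0 - ll * w * u0 := by rw [hx, ← mul_assoc z]
      _ = u0 := by rw [h5, add_mul, one_mul]; abel
  have h5 : z' * u - w * u0 ≠ 0 := by
    intro h
    rw [h, mul_zero] at h4
    exact h0.ne h4.symm
  have h6 := h0.min _ (I.sub_mem (I.smul_mem z' hu) (I.smul_mem w h0.mem)) h5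
  have h7 := congrArg nu h4
  rw [nu_mul, nu_ll] at h7
  have h8 := nu_pos h0.ne
  change nu u0 ≤ nu (z' * u - w * u0) at h6
  linarith

theorem not_three {I : Submodule T9 T9} (h0 : MinGen I u0)
    {u : T9} (hu : u ∈ I) (hpu : InM u0 (cz 3 * u)) (hnu : ¬ InM u0 u) : False := by
  have h6 : InM u0 (ll ^ 6 * u) := by
    have h7 : ll ^ 6 = Dbl.C ⟨⟨-2, 9, -5⟩, ⟨-2, 12, -7⟩⟩ * cz 3 := by
      rw [ll, ← map_pow, lam6, mul_comm, map_mul]
      rfl
    rw [h7, mul_assoc]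
    exact hpu.mul _
  have key : ∀ (k : ℕ) (v : T9), v ∈ I → InM u0 (ll ^ k * v) → InM u0 v := by
    intro k
    induction k with
    | zero =>
      intro v _ h
      rwa [pow_zero, one_mul] at h
    | succ k ih =>
      intro v hv h
      by_contra hcon
      by_cases h1 : InM u0 (ll * v)
      · exact not_lam h0 hv h1 hcon
      · apply h1
        apply ih _ (I.smul_mem ll hv)
        change InM u0 (ll ^ k * (ll * v))
        rw [← mul_assoc, ← pow_succ]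
        exact h
  exact hnu (key 6 u hu h6)

/-! ### conclusion -/

theorem all_InM {I : Submodule T9 T9} (h0 : MinGen I u0) {u : T9} (hu : u ∈ I) : InM u0 u := by
  by_contra hnu
  classical
  have hex : ∃ n : ℕ, 0 < n ∧ InM u0 (cz n * u) := by
    obtain ⟨n, hn⟩ : ∃ n : ℕ, (n : ℤ) = nu u0 :=
      ⟨(nu u0).toNat, Int.toNat_of_nonneg (nu_nonneg u0)⟩
    refine ⟨n, ?_, ?_⟩
    · have := nu_pos h0.ne
      omega
    · refine ⟨u * cf u0, ?_⟩
      rw [mul_assoc, cf_mul, hn, cz_comm]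
  obtain ⟨hpos, hn⟩ := Nat.find_spec hex
  have hmin := fun m (hm : m < Nat.find hex) => Nat.find_min hex hm
  set n := Nat.find hex with hndef
  have hn1 : n ≠ 1 := by
    intro h
    rw [h, Nat.cast_one, cz_one, one_mul] at hn
    exact hnu hn
  obtain ⟨p, hp, m, hm⟩ := Nat.exists_prime_and_dvd hn1
  have hm0 : 0 < m := by
    rcases Nat.eq_zero_or_pos m with h | h
    · rw [h, mul_zero] at hm
      omega
    · exact h
  have hmn : m < n := by
    rw [hm]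
    exact lt_mul_of_one_lt_left hm0 hp.one_lt
  have hv : cz m * u ∈ I := I.smul_mem _ hu
  have hnv : ¬ InM u0 (cz m * u) := fun h => hmin m hmn ⟨hm0, h⟩
  have hpv : InM u0 (cz p * (cz m * u)) := by
    rw [← mul_assoc, ← cz_mul]
    have : (p : ℤ) * m = (n : ℤ) := by
      rw [hm]; push_cast; ring
    rw [this]
    exact hn
  rcases small_prime h0 hp hv hpv hnv with rfl | rfl
  · exact not_two h0 hv hpv hnv
  · exact not_three h0 hv hpv hnv

/-- every non-zero left ideal is principal -/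
theorem principal (I : Submodule T9 T9) (hI : ∃ u ∈ I, u ≠ 0) :
    ∃ u0 ∈ I, u0 ≠ 0 ∧ ∀ u ∈ I, ∃ t, u = t * u0 := by
  classical
  have hex : ∃ n : ℕ, ∃ u ∈ I, u ≠ 0 ∧ nu u = n := by
    obtain ⟨u, hu, hu0⟩ := hI
    exact ⟨(nu u).toNat, u, hu, hu0, (Int.toNat_of_nonneg (nu_nonneg u)).symm⟩
  obtain ⟨u0, h1, h2, h3⟩ := Nat.find_spec hex
  have h0 : MinGen I u0 := by
    refine ⟨h1, h2, ?_⟩
    intro u hu hne
    by_contra hlt
    obtain ⟨m, hm⟩ : ∃ m : ℕ, (m : ℤ) = nu u :=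
      ⟨(nu u).toNat, Int.toNat_of_nonneg (nu_nonneg u)⟩
    refine Nat.find_min hex (m := m) ?_ ⟨u, hu, hne, hm.symm⟩
    have h4 := not_le.1 hlt
    rw [h3, ← hm] at h4
    exact_mod_cast h4
  exact ⟨u0, h1, h2, fun u hu => all_InM h0 hu⟩

section generic

variable {T : Type} [Ring T]

/-- the left ideal of first components of the kernel of a column -/
def kerI (a b : T) : Submodule T T where
  carrier := {u | ∃ v, u * a + v * b = 0}
  add_mem' := by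
    rintro u u' ⟨v, hv⟩ ⟨v', hv'⟩
    refine ⟨v + v', ?_⟩
    have : (u + u') * a + (v + v') * b = (u * a + v * b) + (u' * a + v' * b) := by
      noncomm_ring
    rw [this, hv, hv', add_zero]
  zero_mem' := ⟨0, by rw [zero_mul, zero_mul, add_zero]⟩
  smul_mem' := by
    rintro t u ⟨v, hv⟩
    refine ⟨t * v, ?_⟩
    have : (t * u) * a + (t * v) * b = t * (u * a + v * b) := by noncomm_ring
    rw [smul_eq_mul, this, hv, mul_zero]

/-- transitivity for left principal ideal domains -/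
theorem TR_of_pid (h10 : (1 : T) ≠ 0) (hmz : ∀ x y : T, x * y = 0 → x = 0 ∨ y = 0)
    (hne : ∀ a b : T, b ≠ 0 → ∃ u v, u * a + v * b = 0 ∧ u ≠ 0)
    (hp : ∀ I : Submodule T T, (∃ u ∈ I, u ≠ 0) → ∃ u0 ∈ I, u0 ≠ 0 ∧ ∀ u ∈ I, ∃ t, u = t * u0) :
    TR T := by
  intro a b c d h
  by_cases hb : b = 0
  · subst hb
    rw [mul_zero, add_zero] at h
    have hac : a * c = 1 := by
      have h1 : (a * c - 1) * a = 0 := by rw [sub_mul, mul_assoc, h, mul_one, one_mul, sub_self]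
      rcases hmz _ _ h1 with h2 | h2
      · exact sub_eq_zero.1 h2
      · rw [h2, mul_zero] at h
        exact absurd h.symm h10
    refine ⟨!![c, 0; 0, 1], !![a, 0; 0, 1], ?_, ?_, ?_, ?_⟩
    · apply Matrix.ext
      intro i j
      fin_cases i <;> fin_cases j <;> simp [Matrix.mul_apply, Fin.sum_univ_two, h]
    · apply Matrix.ext
      intro i j
      fin_cases i <;> fin_cases j <;> simp [Matrix.mul_apply, Fin.sum_univ_two, hac]
    · simpa using h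
    · simp
  · obtain ⟨u1, v1, hu1, hu1'⟩ := hne a b hb
    obtain ⟨u0, ⟨v0, hv0⟩, hu0, hgen⟩ := hp (kerI a b) ⟨u1, ⟨v1, hu1⟩, hu1'⟩
    refine TR_of_ker h hv0 ?_ ?_
    · intro x y hxy
      obtain ⟨t, ht⟩ := hgen x ⟨y, hxy⟩
      refine ⟨t, ht, ?_⟩
      have h1 : (y - t * v0) * b = 0 := by
        have : (y - t * v0) * b = (x * a + y * b) - t * (u0 * a + v0 * b) := by
          rw [ht]; noncomm_ring
        rw [this, hxy, hv0, mul_zero, sub_zero]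
      rcases hmz _ _ h1 with h2 | h2
      · exact sub_eq_zero.1 h2
      · exact absurd h2 hb
    · intro t h1 _
      exact (hmz _ _ h1).resolve_right hu0

end generic

theorem one_ne : (1 : T9) ≠ 0 := by decide +kernel

theorem rel_ne (a b : T9) (hb : b ≠ 0) : ∃ u v, u * a + v * b = 0 ∧ u ≠ 0 := by
  by_cases ha : a = 0
  · exact ⟨1, 0, by rw [ha, mul_zero, zero_mul, add_zero], one_ne⟩
  · refine ⟨cz (nu b) * cf a, -(cz (nu a) * cf b), ?_, ?_⟩
    · rw [neg_mul, mul_assoc, mul_assoc, cf_mul, cf_mul, cz_comm, add_neg_cancel]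
    · intro h0
      have h1 := congrArg nu h0
      rw [nu_mul, nu_cz, nu_cf, nu_zero.2 rfl] at h1
      have h2 := nu_pos ha
      have h3 := nu_pos hb
      have h4 : 0 < nu b ^ 6 * nu a ^ 5 := by positivity
      exact h4.ne' h1

/-- transitivity for `ℤ[ζ_9] ⊕ ℤ[ζ_9] j` -/
theorem TR_T9 : TR T9 :=
  TR_of_pid one_ne (fun _ _ h => mz h) rel_ne principal

end Vale.Agent.P246.Max9
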